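import Vale.Agent.P344.Proofs

open Vale.Agent.P344

namespace Vale.Agent.Results.P344.LargeScalars

theorem result (n : ℕ) (hn : 2 ≤ n) (C : List Gate) (hC : ComputesDFT n C) :
    -- every circuit for `F_n` has at least `3 n - 7 n / log₂ n - 2` gates
    (3 * (n : ℝ) - 7 * n / Real.logb 2 n - 2 ≤ (C.length : ℝ)) ∧
    -- at least `2 n - 2` of them are additions or subtractions
    (2 * n - 2 ≤ adds C) ∧
    -- at least `n - (2 * size + n) / log₂ n` of them multiply by a scalar of modulus `> 2`
    ((n : ℝ) - (2 * C.length + n) / Real.logb 2 n ≤ (bigs 2 C : ℝ)) ∧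
    -- the general trade-off, for every threshold `K ≥ 1`
    (∀ K : ℝ, 1 ≤ K → (n : ℝ) ^ (n - bigs K C) ≤
      2 ^ n * (2 ^ adds C * K ^ (C.length - adds C - bigs K C)) ^ 2) ∧
    -- and `n` multiplications by scalars of modulus `> 1` always suffice
    (∃ C' : List Gate, ComputesDFT n C' ∧ C'.length = 3 * C.length + n ∧ bigs 1 C' ≤ n) :=
  ⟨length_lower hn hC, adds_lower hn hC, bigs_lower hn hC,
    fun _ hK => volume_ineq' hn hC hK, complete hC⟩

end Vale.Agent.Results.P344.LargeScalars
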